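import Vale.Agent.P167.H166Q.GDefs
import Vale.Agent.P167.H318.Flow
import Vale.Agent.P167.H318.Co

/-!
# P167, the range `0 < q < 1`: strands confined by an open arc and a dual arc

An open path from a left site of the strand to the flat side in the east and a dual path from a right
site of the strand to the flat side in the west: the strand leaves the domain between their feet.
-/

set_option autoImplicit false

namespace Vale.Agent.P167.N.H632Q

open Vale.Agent.P167 Vale.Agent.P167.H192 Vale.Agent.P145.FB Vale.Agent.P167.H318 Relation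
open Vale.Agent.P167.H318.UQ (LB RB Oc Dc An)
open Vale.Agent.P167.H166Q (OArcW DArcW)
open Vale.Agent.P167.H632 (Ex sq_inl sq_inr)

/-- The complement stays connected if columns which stand on the complement are removed. -/
theorem coConn_down {D : Finset (ℤ × ℤ)} {Z : Set (ℤ × ℤ)} (hD : CoConn D)
    (h0 : ∀ v ∈ Z, 0 ≤ v.2) (h1 : ∀ v ∈ Z, v.2 = 0 → (v.1, (-1 : ℤ)) ∉ D)
    (h2 : ∀ v ∈ Z, 0 < v.2 → (v.1, v.2 - 1) ∈ Z) {D' : Finset (ℤ × ℤ)}
    (mem : ∀ v : ℤ × ℤ, v ∉ D' ↔ v ∉ D ∨ v ∈ Z) : CoConn D' := by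
  have down : ∀ (n : ℕ) (a : ℤ), (a, (n : ℤ)) ∈ Z → (a, (-1 : ℤ)) ∉ D ∧
      ReflTransGen (fun a b => Adj a b ∧ b ∉ D') (a, (n : ℤ)) (a, -1) ∧
      ReflTransGen (fun a b => Adj a b ∧ b ∉ D') (a, -1) (a, (n : ℤ)) := by
    intro n
    induction n with
    | zero =>
      intro a ha
      have h3 : Adj (a, ((0 : ℕ) : ℤ)) (a, -1) := Or.inl ⟨rfl, Or.inr (by simp)⟩
      have h4 := h1 _ ha (by simp)
      exact ⟨h4, .single ⟨h3, (mem _).2 (Or.inl h4)⟩, .single ⟨h3.symm, (mem _).2 (Or.inr ha)⟩⟩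
    | succ n ih =>
      intro a ha
      have ha' : (a, (n : ℤ)) ∈ Z := by
        have := h2 _ ha (by dsimp only; push_cast; omega)
        dsimp only at this
        rwa [show ((n + 1 : ℕ) : ℤ) - 1 = n by push_cast; ring] at this
      have h3 : Adj (a, ((n + 1 : ℕ) : ℤ)) (a, (n : ℤ)) := Or.inl ⟨rfl, Or.inr (by push_cast; ring)⟩
      obtain ⟨i1, i2, i3⟩ := ih a ha'
      exact ⟨i1, (ReflTransGen.single ⟨h3, (mem _).2 (Or.inr ha')⟩).trans i2,
        i3.trans (.single ⟨h3.symm, (mem _).2 (Or.inr ha)⟩)⟩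
  have proj : ∀ a, a ∉ D' → ∃ a', a' ∉ D ∧
      ReflTransGen (fun a b => Adj a b ∧ b ∉ D') a a' ∧
      ReflTransGen (fun a b => Adj a b ∧ b ∉ D') a' a := by
    intro a ha
    rcases (mem a).1 ha with h3 | h3
    · exact ⟨a, h3, .refl, .refl⟩
    · obtain ⟨n, hn⟩ : ∃ n : ℕ, a.2 = n := ⟨a.2.toNat, by have := h0 _ h3; omega⟩
      have e : a = (a.1, (n : ℤ)) := by rw [← hn]
      rw [e] at h3 ⊢
      obtain ⟨i1, i2, i3⟩ := down n _ h3
      exact ⟨(a.1, -1), i1, i2, i3⟩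
  intro a b ha hb
  obtain ⟨a', h3, h4, -⟩ := proj a ha
  obtain ⟨b', h5, -, h6⟩ := proj b hb
  refine h4.trans (ReflTransGen.trans ?_ h6)
  have h7 := hD a' b' h3 h5
  clear h5 h6
  induction h7 with
  | refl => exact .refl
  | @tail p q _ hpq ih => exact ih.tail ⟨hpq.1, (mem _).2 (Or.inl hpq.2)⟩

/-- the potential along an open path with squares of `A ⊆ D` -/
theorem pot_oc {D A : Finset (ℤ × ℤ)} (hA : A ⊆ D) {e0 : Ed} {ξ : Cfg} {n : ℕ} {u : ℤ × ℤ → ℤ}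
    (hu : ∀ e, (hdv e ∈ (D : Set (ℤ × ℤ)) ∨ tlv e ∈ (D : Set (ℤ × ℤ))) →
      u (ls e) = u (rs e) + cnt e0 ξ n e) (h0 : tlv e0 ∉ (D : Set (ℤ × ℤ)))
    (hn : hdv (st e0 ξ n) ∉ (D : Set (ℤ × ℤ))) {s s' : ℤ × ℤ}
    (hs : Even (s.1 + s.2)) (h : Oc A ξ s s') : u s = u s' := by
  obtain ⟨-, h2⟩ := h
  have key : Even (s'.1 + s'.2) ∧ u s = u s' := by
    induction h2 with
    | refl => exact ⟨hs, rfl⟩
    | @tail a b _ hab ih =>
      obtain ⟨i1, i3⟩ := ih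
      obtain ⟨v, ⟨hv, hvA⟩, hst, -⟩ := pstep_sq hab.1
      exact ⟨even_step hst i1, i3.trans
        (pot_open hu h0 hn (Finset.mem_coe.2 (hA (Finset.mem_coe.1 hvA))) i1 hst hv)⟩
  exact key.2

/-- the potential along a dual path with squares of `A ⊆ D` -/
theorem pot_dc {D A : Finset (ℤ × ℤ)} (hA : A ⊆ D) {e0 : Ed} {ξ : Cfg} {n : ℕ} {u : ℤ × ℤ → ℤ}
    (hu : ∀ e, (hdv e ∈ (D : Set (ℤ × ℤ)) ∨ tlv e ∈ (D : Set (ℤ × ℤ))) →
      u (ls e) = u (rs e) + cnt e0 ξ n e) (h0 : tlv e0 ∉ (D : Set (ℤ × ℤ)))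
    (hn : hdv (st e0 ξ n) ∉ (D : Set (ℤ × ℤ))) {s s' : ℤ × ℤ}
    (hs : Odd (s.1 + s.2)) (h : Dc A ξ s s') : u s = u s' := by
  obtain ⟨-, h2⟩ := h
  have key : Odd (s'.1 + s'.2) ∧ u s = u s' := by
    induction h2 with
    | refl => exact ⟨hs, rfl⟩
    | @tail a b _ hab ih =>
      obtain ⟨i1, i3⟩ := ih
      obtain ⟨v, ⟨hv, hvA⟩, hst, -⟩ := pstep_sq hab.1
      have hv' : ξ v = false := by
        rw [← Bool.not_eq_true]; exact hv
      exact ⟨odd_step hst i1, i3.trans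
        (pot_dual hu h0 hn (Finset.mem_coe.2 (hA (Finset.mem_coe.1 hvA))) i1 hst hv')⟩
  exact key.2

/-- **The strand leaves `D` between the feet of the arcs.** -/
theorem land {D A A' : Finset (ℤ × ℤ)} {e0 : Ed} {ξ : Cfg} (hD : CoConn D) (h0 : tlv e0 ∉ D)
    (hA : A ⊆ D) (hA' : A' ⊆ D) {a c : ℤ} (hac : a ≤ c)
    (hin : ∀ x, a ≤ x → x < c → (x, (0 : ℤ)) ∈ D) (hout : ∀ x, a ≤ x → x < c → (x, (-1 : ℤ)) ∉ D)
    (hne : ∀ x, a ≤ x → x < c → e0 ≠ Sum.inr (x, -1)) {i j : ℕ} (hi : i ≤ ex D e0 ξ)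
    (hj : j ≤ ex D e0 ξ) (hN0 : 0 < ex D e0 ξ) (ho : Oc A ξ (ls (st e0 ξ i)) (c, 0))
    (hd : Dc A' ξ (rs (st e0 ξ j)) (a, 0)) :
    ∃ y, a ≤ y ∧ y < c ∧ st e0 ξ (ex D e0 ξ) = Sum.inr (y, -1) := by
  classical
  set N := ex D e0 ξ with hN
  have hND : hdv (st e0 ξ N) ∉ D := Bs.ex_spec h0 ξ
  have hmin : ∀ k < N, hdv (st e0 ξ k) ∈ D := fun k hk => Bs.ex_min hk
  obtain ⟨u, hu⟩ := walk_pot (ex_of_coConn hD) (e0 := e0) (ξ := ξ) (n := N)
    (fun h => h0 (Finset.mem_coe.1 h)) (fun h => hND (Finset.mem_coe.1 h))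
  have h0' : tlv e0 ∉ (D : Set (ℤ × ℤ)) := fun h => h0 (Finset.mem_coe.1 h)
  have hn' : hdv (st e0 ξ N) ∉ (D : Set (ℤ × ℤ)) := fun h => hND (Finset.mem_coe.1 h)
  -- the jump across the edges of the strand
  have hjump : ∀ k ≤ N, (hdv (st e0 ξ k) ∈ D ∨ tlv (st e0 ξ k) ∈ D) →
      u (ls (st e0 ξ k)) = u (rs (st e0 ξ k)) + 1 := by
    intro k hk h
    rw [hu _ (by simpa using h), cnt_eq_one h0 hmin hk]
  have hjump' : ∀ k ≤ N, u (ls (st e0 ξ k)) = u (rs (st e0 ξ k)) + 1 := by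
    intro k hk
    refine hjump k hk ?_
    rcases lt_or_eq_of_le hk with h | h
    · exact Or.inl (hmin k h)
    · right
      obtain ⟨k', rfl⟩ : ∃ k', k = k' + 1 := ⟨k - 1, by omega⟩
      rw [Bs.tlv_st]
      exact hmin k' (by omega)
  have hchain : ∀ k ≤ N, u (ls (st e0 ξ k)) = u (ls e0) ∧ u (rs (st e0 ξ k)) = u (rs e0) := by
    intro k
    induction k with
    | zero => intro _; exact ⟨rfl, rfl⟩
    | succ k ih =>
      intro hk
      obtain ⟨i1, i2⟩ := ih (by omega)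
      have h2 := hjump' k (by omega)
      have h3 := hjump' (k + 1) hk
      rw [Bs.st_succ] at h3 ⊢
      cases hb : ξ (hdv (st e0 ξ k)) with
      | true =>
        rw [rs_nx hb] at h3 ⊢
        exact ⟨by rw [h3, ← h2, i1], i2⟩
      | false =>
        rw [P167.ls_nx hb] at h3 ⊢
        refine ⟨i1, ?_⟩
        linarith
  have e1 : u (c, 0) = u (ls e0) := by
    have h := pot_oc hA hu h0' hn' (H318.even_ls _) ho
    rw [← h, (hchain i hi).1]
  have e2 : u (a, 0) = u (rs e0) := by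
    have h := pot_dc hA' hu h0' hn' (H318.odd_rs _) hd
    rw [← h, (hchain j hj).2]
  have e3 : u (ls e0) = u (rs e0) + 1 := hjump' 0 (by omega)
  -- a jump at the bottom
  have hex : ∃ y, a ≤ y ∧ y < c ∧ cnt e0 ξ N (Sum.inr (y, -1)) ≠ 0 := by
    by_contra hcon
    push Not at hcon
    have key : ∀ k : ℕ, a + k ≤ c → u (a + k, 0) = u (a, 0) := by
      intro k
      induction k with
      | zero => intro _; simp
      | succ k ih =>
        intro hk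
        have h1 := ih (by push_cast at hk; omega)
        have h2 := hcon (a + k) (by omega) (by push_cast at hk; omega)
        have h3 := hu (Sum.inr (a + k, -1)) (by
          rcases sq_inr (a + k, -1) with h | h
          · right
            rw [h.2.1]
            simpa using hin (a + k) (by omega) (by push_cast at hk; omega)
          · left
            rw [h.1]
            simpa using hin (a + k) (by omega) (by push_cast at hk; omega))
        rw [h2] at h3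
        rcases sq_inr (a + k, -1) with h | h <;> rw [h.2.2.2.1, h.2.2.2.2] at h3 <;>
          simp only [neg_add_cancel, add_zero] at h3
        · rw [← h1, ← h3]; push_cast; rw [add_assoc]
        · rw [← h1, h3]; push_cast; rw [add_assoc]
    have h1 := key (c - a).toNat (by omega)
    rw [show a + ((c - a).toNat : ℤ) = c by omega] at h1
    omega
  obtain ⟨y, h1, h2, h3⟩ := hex
  refine ⟨y, h1, h2, ?_⟩
  obtain ⟨k, hk, hk'⟩ := cnt_pos h3
  rcases sq_inr (y, -1) with h | h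
  · -- the edge points downwards
    have h4 : hdv (st e0 ξ k) ∉ D := by rw [hk', h.1]; exact hout y h1 h2
    have h5 : N ≤ k := Bs.ex_le h4
    rw [show N = k by omega]
    exact hk'
  · exfalso
    have h4 : tlv (st e0 ξ k) ∉ D := by rw [hk', h.2.1]; exact hout y h1 h2
    rcases Nat.eq_zero_or_pos k with h5 | h5
    · subst h5
      exact hne y h1 h2 hk'
    · obtain ⟨k', rfl⟩ : ∃ k', k = k' + 1 := ⟨k - 1, by omega⟩
      rw [Bs.tlv_st] at h4
      exact h4 (hmin k' (by omega))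

/-- **Arcs of both colours from the banks to the side confine the strand**: it lands in the window and
it does not visit the fresh columns `Z` off the window. -/
theorem arcs_land {S : St} {b r R : ℤ} {ξ : Cfg} {Z : Set (ℤ × ℤ)} (hS : S.Ok) (hr : 0 ≤ r)
    (hξ : ∀ v, v ∉ S.F → ξ v = S.z v) (hD : ∀ v ∈ HB b R, v ∈ S.D)
    (hrow : ∀ x, b - R ≤ x → x ≤ b + R → (x, (-1 : ℤ)) ∉ S.D)
    (hne : ∀ x, b - R ≤ x → x ≤ b + R → S.e0 ≠ Sum.inr (x, -1)) (htip : hdv S.tip ∈ HB b R)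
    (ho : OArcW S b r R ξ) (hd : DArcW S b r R ξ) (z1 : ∀ v ∈ Z, v ∈ S.F)
    (z2 : ∀ v ∈ Z, 0 ≤ v.2) (z3 : ∀ v ∈ Z, v.2 = 0 → (v.1, (-1 : ℤ)) ∉ S.D)
    (z4 : ∀ v ∈ Z, 0 < v.2 → (v.1, v.2 - 1) ∈ Z) (z5 : ∀ v ∈ Z, v.1 < b - R ∨ b + R < v.1) :
    S.m < ex S.D S.e0 ξ ∧
    (∃ y, b - R ≤ y ∧ y ≤ b + R ∧ st S.e0 ξ (ex S.D S.e0 ξ) = Sum.inr (y, -1)) ∧
      ∀ j < ex S.D S.e0 ξ, hdv (st S.e0 ξ j) ∉ Z := by
  classical
  set D' := S.D.filter fun v => v ∉ Z with hD'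
  have mem : ∀ v : ℤ × ℤ, v ∈ D' ↔ v ∈ S.D ∧ v ∉ Z := fun v => by
    rw [hD', Finset.mem_filter]
  have hsub : D' ⊆ S.D := Finset.filter_subset _ _
  have hco : CoConn D' := coConn_down hS.co z2 z3 z4 fun v => by
    rw [mem]
    tauto
  have h0 : tlv S.e0 ∉ D' := fun h => hS.st (hsub h)
  have hHB : ∀ v ∈ HB b R, v ∈ D' := fun v hv => (mem v).2 ⟨hD v hv, fun h => by
    obtain ⟨h1, h2, -, -⟩ := hv
    rcases z5 v h with h3 | h3 <;> omega⟩
  have hpast : ∀ i ≤ S.m, st S.e0 ξ i = st S.e0 S.z i :=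
    Bs.st_congr (n := S.m) fun i hi => hξ _ fun hF => (Bs.hit_min hi).1 (Finset.mem_coe.2 hF)
  have hin : ∀ k ≤ S.m, hdv (st S.e0 ξ k) ∈ D' := by
    intro k hk
    rw [hpast k hk]
    rcases lt_or_eq_of_le hk with h | h
    · have h1 := Bs.hit_min (D := S.D) (e0 := S.e0) (A := (↑S.F : Set (ℤ × ℤ))) (ξ := S.z) h
      exact (mem _).2 ⟨h1.2, fun h2 => h1.1 (Finset.mem_coe.2 (z1 _ h2))⟩
    · rw [h]
      exact hHB _ htip
  have hmN : S.m < ex D' S.e0 ξ := by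
    by_contra hcon
    exact Bs.ex_spec h0 ξ (hin _ (not_lt.1 hcon))
  have hAn : S.F ∩ An b r R ⊆ D' := by
    intro v hv
    obtain ⟨h1, h2⟩ := Finset.mem_inter.1 hv
    exact hHB _ (H685.Q.mem_hbF.1 (Finset.mem_sdiff.1 h2).1)
  obtain ⟨s, p, ⟨i, hi, rfl⟩, p2, p3, p4, hpo⟩ := ho
  obtain ⟨s', p', ⟨j, hj, rfl⟩, p2', p3', p4', hpd⟩ := hd
  have e1 : p = (p.1, 0) := Prod.ext rfl p2
  have e2 : p' = (p'.1, 0) := Prod.ext rfl p2'
  rw [e1, ← hpast i hi] at hpo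
  rw [e2, ← hpast j hj] at hpd
  obtain ⟨y, y1, y2, y3⟩ := land hco h0 hAn hAn (a := p'.1) (c := p.1) (by omega)
    (fun x x1 x2 => hHB _ ⟨by dsimp only; omega, by dsimp only; omega, le_rfl,
      by dsimp only; omega⟩)
    (fun x x1 x2 h => hrow x (by omega) (by omega) (hsub h))
    (fun x x1 x2 => hne x (by omega) (by omega)) (hi.trans hmN.le) (hj.trans hmN.le) (by omega)
    hpo hpd
  have hyD : hdv (st S.e0 ξ (ex D' S.e0 ξ)) ∉ S.D := by
    have h1 := Bs.ex_spec h0 ξ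
    rw [y3] at h1 ⊢
    rcases sq_inr (y, -1) with h | h
    · rw [h.1]
      exact hrow y (by omega) (by omega)
    · rw [h.1] at h1
      exact absurd (hHB _ ⟨by dsimp only; omega, by dsimp only; omega, by simp,
        by dsimp only; omega⟩) h1
  have hex : ex S.D S.e0 ξ = ex D' S.e0 ξ :=
    le_antisymm (Bs.ex_le hyD) (Bs.le_ex hS.st fun k hk => hsub (Bs.ex_min hk))
  rw [hex]
  refine ⟨hmN, ⟨y, by omega, by omega, y3⟩, fun k hk hkZ => ?_⟩
  exact ((mem _).1 (Bs.ex_min hk)).2 hkZ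

end Vale.Agent.P167.N.H632Q
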