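import Vale.Agent.P167.N.Base.ArcW
import Vale.Agent.P167.N.H632.Q.ArcDet
import Vale.Agent.P167.H685.Q.Defs

/-!
# P167, the range `0 < q < 1`: the escape estimate

`ESCA`: with probability at least `1 - C (r / R) ^ α` there are an open arc and a dual arc from the
banks of the explored strand to the side, in the half annulus. It replaces `ESCQ`.
-/

set_option autoImplicit false

namespace Vale.Agent.P167.N.H685.Q

open Vale.Agent.P167 Vale.Agent.P167.FK Vale.Agent.P167.FKA Vale.Agent.P167.H685.Q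
open Vale.Agent.P167.H318 (St PO HB)
open Vale.Agent.P167.H166Q (OArcW DArcW)

/-- the bound of the probability that an arc is missing -/
def EscA (Q C α : ℝ) : Prop := ∀ (S : St) (b r R : ℤ), 1 ≤ r → r ≤ R →
  S.Ok → Gq S b R → (∀ v ∈ HB b R, v ∈ S.D) → (∀ x, b - R ≤ x → x ≤ b + R → (x, (-1 : ℤ)) ∉ S.D) →
  (∀ v ∈ HB b r, v ∈ S.F) → PO S (HB b R) → hdv S.tip ∈ HB b r →
  PQ Q S {ξ | ¬ (OArcW S b r R ξ ∧ DArcW S b r R ξ)} ≤ C * ((r : ℝ) / R) ^ α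

/-- **ESCA**: replaces `ESCQ` -/
def ESCA (Q : ℝ) : Prop := ∃ C α : ℝ, 0 < C ∧ 0 < α ∧ EscA Q C α

end Vale.Agent.P167.N.H685.Q

namespace Vale.Agent.P167.N.H632Q

open Finset Relation Vale.Agent.P167 Vale.Agent.P167.FK Vale.Agent.P167.FKA
open Vale.Agent.P145.FB (PStep PConn)
open Vale.Agent.P167.H259 (f_markov)
open Vale.Agent.P167.H318 (St PO HB)
open Vale.Agent.P167.H318.UQ (LB RB Oc Dc An)
open Vale.Agent.P167.H166Q (OArcW DArcW)
open Vale.Agent.P167.H685.Q (PQ EQ Gq mem_hbF)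
open Vale.Agent.P167.H192.ArcQ (AG1 col_fresh)

variable {Q c : ℝ} {S : St} {b r R r' R' : ℤ}

theorem mem_An {v : ℤ × ℤ} : v ∈ An b r R ↔ v ∈ HB b R ∧ v ∉ HB b r := by
  unfold An
  rw [Finset.mem_sdiff, mem_hbF, mem_hbF]

theorem An_mono (h1 : r ≤ r') (h2 : R' ≤ R) : An b r' R' ⊆ An b r R := by
  intro v hv
  rw [mem_An] at hv ⊢
  obtain ⟨⟨a1, a2, a3, a4⟩, h3⟩ := hv
  refine ⟨⟨by omega, by omega, a3, by omega⟩, fun h => h3 ?_⟩
  obtain ⟨b1, b2, b3, b4⟩ := h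
  exact ⟨by omega, by omega, b3, by omega⟩

theorem An_disj {m : ℤ} : Disjoint (An b m R) (An b r m) := by
  rw [Finset.disjoint_left]
  intro v hv hv'
  rw [mem_An] at hv hv'
  exact hv.2 hv'.1

theorem Oc_mono {A A' : Finset (ℤ × ℤ)} (hA : A ⊆ A') {ξ : Cfg} {s t : ℤ × ℤ} (h : Oc A ξ s t) :
    Oc A' ξ s t :=
  PConn.mono (Set.inter_subset_inter_right _ (Finset.coe_subset.2 hA)) subset_rfl h

theorem Dc_mono {A A' : Finset (ℤ × ℤ)} (hA : A ⊆ A') {ξ : Cfg} {s t : ℤ × ℤ} (h : Dc A ξ s t) :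
    Dc A' ξ s t :=
  PConn.mono (Set.inter_subset_inter_right _ (Finset.coe_subset.2 hA)) subset_rfl h

theorem OArcW_mono (h1 : r ≤ r') (h2 : R' ≤ R) {ξ : Cfg} (h : OArcW S b r' R' ξ) :
    OArcW S b r R ξ := by
  obtain ⟨s, p, hs, p1, p2, p3, hp⟩ := h
  exact ⟨s, p, hs, p1, by omega, by omega,
    Oc_mono (Finset.inter_subset_inter_left (An_mono h1 h2)) hp⟩

theorem DArcW_mono (h1 : r ≤ r') (h2 : R' ≤ R) {ξ : Cfg} (h : DArcW S b r' R' ξ) :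
    DArcW S b r R ξ := by
  obtain ⟨s, p, hs, p1, p2, p3, hp⟩ := h
  exact ⟨s, p, hs, p1, by omega, by omega,
    Dc_mono (Finset.inter_subset_inter_left (An_mono h1 h2)) hp⟩

theorem Oc_congr {A : Finset (ℤ × ℤ)} {ξ ξ' : Cfg} (h : ∀ v ∈ A, ξ v = ξ' v) {s t : ℤ × ℤ}
    (h1 : Oc A ξ s t) : Oc A ξ' s t := by
  refine PConn.mono ?_ subset_rfl h1
  rintro v ⟨hv, hvA⟩
  refine ⟨?_, hvA⟩
  show ξ' v = true
  rw [← h v (Finset.mem_coe.1 hvA)]
  exact hv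

theorem Dc_congr {A : Finset (ℤ × ℤ)} {ξ ξ' : Cfg} (h : ∀ v ∈ A, ξ v = ξ' v) {s t : ℤ × ℤ}
    (h1 : Dc A ξ s t) : Dc A ξ' s t := by
  refine PConn.mono ?_ subset_rfl h1
  rintro v ⟨hv, hvA⟩
  refine ⟨?_, hvA⟩
  show ¬ ξ' v = true
  rw [← h v (Finset.mem_coe.1 hvA)]
  exact hv

theorem OArcW_congr {ξ ξ' : Cfg} (h : ∀ v ∈ S.F ∩ An b r R, ξ v = ξ' v) (h1 : OArcW S b r R ξ) :
    OArcW S b r R ξ' := by
  obtain ⟨s, p, hs, p1, p2, p3, hp⟩ := h1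
  exact ⟨s, p, hs, p1, p2, p3, Oc_congr h hp⟩

theorem DArcW_congr {ξ ξ' : Cfg} (h : ∀ v ∈ S.F ∩ An b r R, ξ v = ξ' v) (h1 : DArcW S b r R ξ) :
    DArcW S b r R ξ' := by
  obtain ⟨s, p, hs, p1, p2, p3, hp⟩ := h1
  exact ⟨s, p, hs, p1, p2, p3, Dc_congr h hp⟩

theorem AG1.mono (H : AG1 S b r R) (h1 : r ≤ r') (h2 : R' ≤ R) : AG1 S b r' R' := by
  refine ⟨H.toOk, fun y g1 g2 => H.ne y (by omega) (by omega), fun v hv => H.mem v ?_,
    fun x g1 g2 => H.not x (by omega) (by omega), fun v hv => H.po v ?_, ?_, H.cl⟩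
  · obtain ⟨a1, a2, a3, a4⟩ := hv
    exact ⟨by omega, by omega, a3, by omega⟩
  · obtain ⟨a1, a2, a3, a4⟩ := hv
    exact ⟨by omega, by omega, a3, by omega⟩
  · obtain ⟨a1, a2, a3, a4⟩ := H.tip
    exact ⟨by omega, by omega, a3, by omega⟩

/-- **Scales**: an event which contains independent trials at all scales. -/
theorem dec_scales (hQ : 0 < Q) (hc : c ≤ 1) {Λ : ℤ} (hΛ : 1 ≤ Λ) {E : ℤ → ℤ → Set Cfg}
    (hz : Good S.z)
    (hmono : ∀ r r' R' R, r ≤ r' → R' ≤ R → E r' R' ⊆ E r R)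
    (hloc : ∀ r R, ∀ ξ ξ' : Cfg, (∀ v ∈ S.F ∩ An b r R, ξ v = ξ' v) → ξ ∈ E r R → ξ' ∈ E r R)
    (h : ∀ r R ζ, 1 ≤ r → Λ * r ≤ R → AG1 S b r R → Good ζ → (∀ v, v ∉ S.F → ζ v = S.z v) →
      c ≤ Pr Q (S.F ∩ An b r R) ζ (E r R)) :
    ∀ (n : ℕ) (r R : ℤ), 1 ≤ r → r ≤ R → Λ ^ n * r ≤ R → AG1 S b r R →
      Pr Q S.F S.z (E r R)ᶜ ≤ (1 - c) ^ n := by
  intro n
  induction n with
  | zero =>
    intro r R _ _ _ _
    rw [pow_zero]
    exact Pr_le_one hQ _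
  | succ n ih =>
    intro r R hr hrR hn H
    have hΛn : (1 : ℤ) ≤ Λ ^ n := one_le_pow₀ hΛ
    have hr1 : r ≤ Λ * r := by nlinarith
    have e : Λ ^ n * (Λ * r) = Λ ^ (n + 1) * r := by ring
    have h1 : Λ * r ≤ R := by
      have : 1 * (Λ * r) ≤ Λ ^ n * (Λ * r) := mul_le_mul_of_nonneg_right hΛn (by nlinarith)
      omega
    have h2 := ih (Λ * r) R (by omega) h1 (by rw [e]; exact hn) (AG1.mono H hr1 le_rfl)
    set A := S.F ∩ An b r (Λ * r) with hA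
    have hind : Ind A ((E (Λ * r) R)ᶜ.indicator (1 : Cfg → ℝ)) := by
      intro ω ω' hω
      have k : ∀ v ∈ S.F ∩ An b (Λ * r) R, ω v = ω' v := fun v hv => hω v fun hvA =>
        (Finset.disjoint_left.1 An_disj) (Finset.mem_inter.1 hv).2 (Finset.mem_inter.1 hvA).2
      have k1 : ω ∈ E (Λ * r) R ↔ ω' ∈ E (Λ * r) R :=
        ⟨hloc _ _ _ _ k, hloc _ _ _ _ fun v hv => (k v hv).symm⟩
      by_cases g : ω ∈ E (Λ * r) R
      · rw [Set.indicator_of_notMem (by simpa using g), Set.indicator_of_notMem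
          (by simpa using k1.1 g)]
      · rw [Set.indicator_of_mem (by simpa using g), Set.indicator_of_mem
          (by simpa using fun g' => g (k1.2 g'))]
        rfl
    have k1 : Pr Q S.F S.z (E r R)ᶜ ≤ Ex Q S.F S.z (fun ω =>
        (E (Λ * r) R)ᶜ.indicator 1 ω * (E r (Λ * r))ᶜ.indicator 1 ω) := by
      refine Ex_mono hQ fun T _ => ?_
      rw [← ind_inter]
      refine Vale.Agent.P167.H519.ind_le_of_imp fun g => ⟨fun g1 => g (hmono _ _ _ _ hr1 le_rfl g1),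
        fun g1 => g (hmono _ _ _ _ le_rfl h1 g1)⟩
    refine k1.trans ?_
    rw [markov f_markov hQ (A := A) Finset.inter_subset_left hz hind, pow_succ]
    have k2 : Ex Q S.F S.z (fun ω => (E (Λ * r) R)ᶜ.indicator 1 ω *
        Ex Q A ω ((E r (Λ * r))ᶜ.indicator 1)) ≤
        Ex Q S.F S.z (fun ω => (1 - c) * (E (Λ * r) R)ᶜ.indicator 1 ω) := by
      refine Ex_mono hQ fun T _ => ?_
      rw [mul_comm (1 - c)]
      refine mul_le_mul_of_nonneg_left ?_ (ind_nonneg _ _)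
      have k3 := h r (Λ * r) (cf S.F S.z T) hr le_rfl (AG1.mono H le_rfl h1) (f_good.1 _ _ _ hz)
        fun v hv => cf_out hv
      have k4 := Pr_compl (Q := Q) (D := A) (η := cf S.F S.z T) hQ (E r (Λ * r))
      unfold Pr at k3 k4
      rw [k4]
      linarith
    refine k2.trans ?_
    rw [Ex_mul_left, mul_comm]
    exact mul_le_mul_of_nonneg_right h2 (by linarith)

/-- **The escape estimate.** -/
theorem esca (hQ : 0 < Q) (hA : N.ARCW Q) : N.H685.Q.ESCA Q := by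
  obtain ⟨Λ, c, hΛ, hc, h⟩ := hA
  set a : ℝ := max (1 - c) (1 / 2) with ha
  obtain ⟨α, C, hα, hC, hpow⟩ := pow_decay (a := a) (by positivity) (max_lt (by linarith)
    (by norm_num)) (show (2 : ℤ) ≤ Λ by omega)
  refine ⟨2 * C, α, by positivity, hα, ?_⟩
  intro S b r R hr hrR hOk hG hD hrow hF hPO htip
  have H : AG1 S b r R := ⟨hOk, fun y g1 g2 => hG.ne y g1 g2, hD, hrow, hPO, htip,
    col_fresh hF htip⟩
  -- `c ≤ 1`: there is a large scale, or nothing to prove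
  have hsc : ∀ (E : ℤ → ℤ → Set Cfg) (_ : ∀ r r' R' R, r ≤ r' → R' ≤ R → E r' R' ⊆ E r R)
      (_ : ∀ r R, ∀ ξ ξ' : Cfg, (∀ v ∈ S.F ∩ An b r R, ξ v = ξ' v) → ξ ∈ E r R → ξ' ∈ E r R)
      (_ : ∀ r R ζ, 1 ≤ r → Λ * r ≤ R → AG1 S b r R → Good ζ → (∀ v, v ∉ S.F → ζ v = S.z v) →
        c ≤ Pr Q (S.F ∩ An b r R) ζ (E r R)),
      Pr Q S.F S.z (E r R)ᶜ ≤ C * ((r : ℝ) / R) ^ α := by
    intro E h1 h2 h3
    refine hpow _ r R hr hrR fun n hn => ?_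
    rcases n with _ | n
    · rw [pow_zero]
      exact Pr_le_one hQ _
    · have hc1 : c ≤ 1 := by
        have hΛn : (1 : ℤ) ≤ Λ ^ n := one_le_pow₀ (by omega)
        have h4 : Λ * r ≤ R := by
          have e : Λ ^ n * (Λ * r) = Λ ^ (n + 1) * r := by ring
          have : 1 * (Λ * r) ≤ Λ ^ n * (Λ * r) := mul_le_mul_of_nonneg_right hΛn (by nlinarith)
          omega
        exact (h3 r R S.z hr h4 H hG.good fun _ _ => rfl).trans (Pr_le_one hQ _)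
      refine (dec_scales hQ hc1 (by omega) hG.good h1 h2 h3 (n + 1) r R hr hrR hn H).trans ?_
      exact pow_le_pow_left₀ (by linarith) (le_max_left _ _) _
  have k1 := hsc (fun r R => {ξ | OArcW S b r R ξ}) (fun _ _ _ _ g1 g2 _ => OArcW_mono g1 g2)
    (fun _ _ _ _ g => OArcW_congr g) (fun r R ζ g1 g2 g3 g4 g5 => (h S b r R ζ g1 g2 g3 g4 g5).1)
  have k2 := hsc (fun r R => {ξ | DArcW S b r R ξ}) (fun _ _ _ _ g1 g2 _ => DArcW_mono g1 g2)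
    (fun _ _ _ _ g => DArcW_congr g) (fun r R ζ g1 g2 g3 g4 g5 => (h S b r R ζ g1 g2 g3 g4 g5).2)
  have k3 : PQ Q S {ξ | ¬ (OArcW S b r R ξ ∧ DArcW S b r R ξ)} ≤
      Pr Q S.F S.z ({ξ | OArcW S b r R ξ}ᶜ ∪ {ξ | DArcW S b r R ξ}ᶜ) := by
    refine Pr_mono hQ fun ξ hξ => ?_
    rcases not_and_or.1 hξ with g | g
    · exact Or.inl g
    · exact Or.inr g
  refine k3.trans ((Pr_union_le hQ _ _).trans ?_)
  linarith

end Vale.Agent.P167.N.H632Q
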