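import Vale.Agent.P167.N.H685.Q.Rec4
import Vale.Agent.P167.H632.Q.SMQ

/-!
# P167, the range `0 < q < 1`, block Q-NSYM: the second moment `SMQ`, from `ESCA`
-/

set_option autoImplicit false

namespace Vale.Agent.P167.N.H632Q

open Relation Vale.Agent.P167 Vale.Agent.P167.FKA Vale.Agent.P167.H871
  Vale.Agent.P153 Vale.Agent.P153.Topo
open Vale.Agent.P167.H632 hiding HB E S
open Vale.Agent.P145.FB (PStep PConn)
open Vale.Agent.P167.FK (cf Good)
open Vale.Agent.P167.H318 (St TA Flat PO Lo HB J ex hit Visit st RV_path stopSet_RV RV_sub)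
open Vale.Agent.P167.H685.Q Vale.Agent.P167.H632Q
open Vale.Agent.P167.N.H685.Q (EscA ESCA NoArc conf)

variable {Q C α : ℝ} {S : St}

/-- The strand lands in the window. -/
def Ft (S : St) (b R : ℤ) (ω : Cfg) : Prop :=
  ∃ y, |y - b| ≤ R ∧ st S.e0 ω (ex S.D S.e0 ω) = Sum.inr (y, -1)

theorem Ft.near {b R : ℤ} {ω : Cfg} (h : Ft S b R ω) :
    b - R - 1 ≤ (hdv (st S.e0 ω (ex S.D S.e0 ω))).1 ∧
      (hdv (st S.e0 ω (ex S.D S.e0 ω))).1 ≤ b + R + 1 := by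
  obtain ⟨y, h1, h2⟩ := h
  have h3 := abs_le.1 h1
  rw [h2]
  rcases sq_inr (y, -1) with h' | h' <;> rw [h'.1] <;> dsimp only <;> omega

/-- **The strand lands in the window with probability at least `1 / 2`, given the past.** -/
theorem half_esc (hQ : 0 < Q) (hE : EscA Q C α) (hS : S.Ok) {b r0 R : ℤ} (h1 : 1 ≤ r0)
    (h2 : r0 ≤ R) (hG : Gq S b R) (hD : ∀ v ∈ HB b R, v ∈ S.D)
    (hn : ∀ x, b - R ≤ x → x ≤ b + R → (x, (-1 : ℤ)) ∉ S.D) (hP : PO S (HB b R))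
    (hA : ∀ v ∈ HB b r0, v ∈ S.F) (hp : C * ((r0 : ℝ) / R) ^ α ≤ 1 / 2) (A' : Set Pt) :
    PQ Q S {ω | Pv2 S (HB b r0) A' ω} ≤
      2 * PQ Q S ({ω | Pv2 S (HB b r0) A' ω} ∩ {ω | Ft S b R ω}) := by
  set A := HB b r0 with hAdef
  set Y : Cfg → ℝ := {ω | Pv2 S A A' ω}.indicator 1 with hY
  set E : Set Cfg := {ω | ¬ Ft S b R ω} with hEdef
  have k1 : EQ Q S (fun ω => Y ω * E.indicator 1 ω) ≤ 1 / 2 * EQ Q S Y := by
    rw [EQ_stop hQ hG.good (stopSet_RV hS.st A) (fun ω => RV_cf A ω) (past_Pv2 hS A A'),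
      ← EQ_mul]
    refine EQ_mono hQ fun ω hω => ?_
    rw [mul_comm (1 / 2 : ℝ)]
    by_cases h3 : ω ∈ {ω | Pv2 S A A' ω}
    · refine mul_le_mul_of_nonneg_left ?_ (ind_nonneg _ _)
      have ht : hdv (S.X1 A ω) ∈ A := by
        have h5 : hdv (st S.e0 ω (hit S.D S.e0 A ω)) ∈ A := h3.1
        show hdv (st S.e0 (S.cf ω) (hit S.D S.e0 A (S.cf ω))) ∈ HB b r0
        rw [hω.cf]
        exact h5
      have h4 := N.H685.Q.esc_int (Q := Q) (ω := ω) hE hS hA h1 h2 hG hD hn hP (fun v hv => hv) ht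
      refine le_trans ?_ (h4.trans hp)
      refine EQ_mono hQ fun ξ hξ => ?_
      by_cases h7 : ξ ∈ E
      · have h8 : ξ ∈ NoArc (S.rv (S.RV A ω) ω) b r0 R := by
          by_contra hcon
          apply h7
          obtain ⟨m1, m2, m3⟩ := rv_int hS hA ω
          have hlo : ∀ v ∈ Lo b R 0, v ∈ (S.rv (S.RV A ω) ω).F := fun v hv =>
            absurd hv.2.2.2 (not_lt.2 hv.2.2.1)
          have k4 := conf (u := b) (w := R) (h := 0)
            (S1 := S.rv (S.RV A ω) ω) (H318.rv_ok hS _ ω) h1 h2 (gq_rv hG _ ω) hD hn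
            (by rw [m2]; exact ht) hlo hn hξ (not_not.1 hcon)
          exact k4.2.1
        rw [Set.indicator_of_mem h7, Set.indicator_of_mem h8]
      · rw [Set.indicator_of_notMem h7]
        exact ind_nonneg _ _
    · have h4 : Y ω = 0 := Set.indicator_of_notMem h3 _
      show Y ω * _ ≤ Y ω * _
      rw [h4, zero_mul, zero_mul]
  have k2 : EQ Q S Y = EQ Q S (fun ω => Y ω * E.indicator 1 ω) +
      PQ Q S ({ω | Pv2 S A A' ω} ∩ {ω | Ft S b R ω}) := by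
    show _ = _ + EQ Q S (({ω | Pv2 S A A' ω} ∩ {ω | Ft S b R ω}).indicator 1)
    rw [← EQ_add]
    refine EQ_congr fun ω _ => ?_
    rw [ind_inter]
    have h3 : E.indicator (1 : Cfg → ℝ) ω = 1 - ({ω | Ft S b R ω} : Set Cfg).indicator 1 ω :=
      ind_compl {ω | Ft S b R ω} ω
    rw [h3]
    ring
  have k3 : PQ Q S {ω | Pv2 S A A' ω} = EQ Q S Y := rfl
  rw [k3]
  linarith

/-- **The second moment of the number of the visited blocks.** -/
theorem vis2 (hQ : 0 < Q) (hE : EscA Q C α) (hS : S.Ok) {r0 R : ℤ} (h1 : 1 ≤ r0) (h2 : r0 ≤ R)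
    (hp : C * ((r0 : ℝ) / R) ^ α ≤ 1 / 2) (J : Finset ℤ) (b : ℤ → ℤ)
    (hG : ∀ j ∈ J, Gq S (b j) R) (hF : ∀ j ∈ J, ∀ v ∈ HB (b j) R, v ∈ S.F)
    (hn : ∀ j ∈ J, ∀ x, b j - R ≤ x → x ≤ b j + R → (x, (-1 : ℤ)) ∉ S.D) (M : ℕ)
    (hM : ∀ x : ℤ, ∀ T ⊆ J, (∀ j ∈ T, b j - R - 1 ≤ x ∧ x ≤ b j + R + 1) → T.card ≤ M) :
    ∑ i ∈ J, ∑ j ∈ J, PQ Q S ({ω | Pv S (HB (b i) r0) ω} ∩ {ω | Pv S (HB (b j) r0) ω}) ≤
      8 * (M : ℝ) ^ 2 := by
  classical
  set P : ℤ → Set Cfg := fun j => {ω | Pv S (HB (b j) r0) ω} with hP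
  set F : ℤ → Set Cfg := fun j => {ω | Pv S (HB (b j) r0) ω ∧ Ft S (b j) R ω} with hFd
  set A : ℤ → ℤ → Set Cfg := fun i j => {ω | Pv2 S (HB (b j) r0) (HB (b i) r0) ω} with hA
  have hsub : ∀ j ∈ J, ∀ v ∈ HB (b j) r0, v ∈ S.F := fun j hj v hv => hF j hj v (by
    obtain ⟨g1, g2, g3, g4⟩ := hv
    exact ⟨by omega, by omega, g3, by omega⟩)
  have foot : ∀ X : Set Cfg, ∑ j ∈ J, PQ Q S (X ∩ F j) ≤ M * PQ Q S X := by
    intro X
    refine sum_PQ_le hQ J X F M fun ω _ T hT hTω => ?_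
    refine hM (hdv (st S.e0 ω (ex S.D S.e0 ω))).1 T hT fun j hj => ?_
    exact Ft.near (hTω j hj).2
  have half : ∀ j ∈ J, ∀ A' : Set Pt, PQ Q S {ω | Pv2 S (HB (b j) r0) A' ω} ≤
      2 * PQ Q S ({ω | Pv2 S (HB (b j) r0) A' ω} ∩ {ω | Ft S (b j) R ω}) := fun j hj A' =>
    half_esc hQ hE hS h1 h2 (hG j hj) (fun v hv => hS.sub (hF j hj v hv)) (hn j hj)
      (fun v hv => Or.inl (hF j hj v hv)) (hsub j hj) hp A'
  have hA1 : ∀ i ∈ J, ∀ j ∈ J, PQ Q S (A i j) ≤ 2 * PQ Q S (P i ∩ F j) := by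
    intro i _ j hj
    refine (half j hj (HB (b i) r0)).trans (mul_le_mul_of_nonneg_left (PQ_mono' hQ ?_)
      (by norm_num))
    rintro ω - ⟨g1, g2⟩
    exact ⟨g1.right hS (fun v hv => hS.sub (hsub j hj v hv)), g1.left, g2⟩
  have hP1 : ∀ i ∈ J, PQ Q S (P i) ≤ 2 * PQ Q S (Set.univ ∩ F i) := by
    intro i hi
    have k1 : PQ Q S (P i) ≤ PQ Q S {ω | Pv2 S (HB (b i) r0) (HB (b i) r0) ω} :=
      PQ_mono' hQ fun ω _ hω => ⟨hω, _, le_rfl, hω⟩
    refine (k1.trans (half i hi (HB (b i) r0))).trans (mul_le_mul_of_nonneg_left (PQ_mono' hQ ?_)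
      (by norm_num))
    rintro ω - ⟨g1, g2⟩
    exact ⟨trivial, g1.left, g2⟩
  have huniv : PQ Q S Set.univ ≤ 1 := Pr_le_one hQ _
  have hM0 : (0 : ℝ) ≤ M := by positivity
  have hAs : ∑ i ∈ J, ∑ j ∈ J, PQ Q S (A i j) ≤ 4 * (M : ℝ) ^ 2 := by
    calc ∑ i ∈ J, ∑ j ∈ J, PQ Q S (A i j)
        ≤ ∑ i ∈ J, ∑ j ∈ J, 2 * PQ Q S (P i ∩ F j) :=
          Finset.sum_le_sum fun i hi => Finset.sum_le_sum fun j hj => hA1 i hi j hj
      _ = ∑ i ∈ J, 2 * ∑ j ∈ J, PQ Q S (P i ∩ F j) := by simp only [Finset.mul_sum]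
      _ ≤ ∑ i ∈ J, 2 * (M * PQ Q S (P i)) := by
          refine Finset.sum_le_sum fun i _ => ?_
          gcongr
          exact foot (P i)
      _ ≤ ∑ i ∈ J, 2 * (M * (2 * PQ Q S (Set.univ ∩ F i))) := by
          refine Finset.sum_le_sum fun i hi => ?_
          gcongr
          exact hP1 i hi
      _ = 4 * M * ∑ i ∈ J, PQ Q S (Set.univ ∩ F i) := by
          rw [Finset.mul_sum]
          exact Finset.sum_congr rfl fun _ _ => by ring
      _ ≤ 4 * M * (M * PQ Q S Set.univ) := by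
          gcongr
          exact foot _
      _ ≤ 4 * M * (M * 1) := by gcongr
      _ = _ := by ring
  calc ∑ i ∈ J, ∑ j ∈ J, PQ Q S (P i ∩ P j)
      ≤ ∑ i ∈ J, ∑ j ∈ J, (PQ Q S (A i j) + PQ Q S (A j i)) := by
        refine Finset.sum_le_sum fun i _ => Finset.sum_le_sum fun j _ => ?_
        refine (PQ_mono' (B := A i j ∪ A j i) hQ ?_).trans (Pr_union_le hQ _ _)
        rintro ω - ⟨g1, g2⟩
        have g1' : Pv S (HB (b i) r0) ω := g1
        have g2' : Pv S (HB (b j) r0) ω := g2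
        exact (pv2_or g2' g1').imp id id
    _ = ∑ i ∈ J, ∑ j ∈ J, PQ Q S (A i j) + ∑ i ∈ J, ∑ j ∈ J, PQ Q S (A j i) := by
        simp only [Finset.sum_add_distrib]
    _ = 2 * ∑ i ∈ J, ∑ j ∈ J, PQ Q S (A i j) := by
        rw [Finset.sum_comm (f := fun i j => PQ Q S (A j i))]
        ring
    _ ≤ _ := by linarith

/-- **SM** for general `q`. -/
theorem smq (hQ0 : 0 < Q) (hE : ESCA Q) : SMQ Q := by
  classical
  obtain ⟨C, α, hC, hα, hE⟩ := hE
  obtain ⟨K, hK, hKp⟩ := exists_K C hα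
  refine ⟨32 * ((2 * K + 5 : ℤ) : ℝ) ^ 2, K + 150, ?_, by omega, ?_⟩
  · have : (0 : ℝ) < ((2 * K + 5 : ℤ) : ℝ) := by exact_mod_cast (by omega : 0 < 2 * K + 5)
    positivity
  intro S u w y k ψ hk hky hTA hG hψ hs
  have hk' : (1 : ℤ) ≤ k := by exact_mod_cast hk
  have hKk : (k : ℤ) ≤ K * k := by nlinarith
  have e0 : (K + 150) * (k : ℤ) = K * k + 150 * k := by ring
  rw [e0] at hky
  simp only [e0] at hs
  set w' : ℤ := w - K * k with hw'
  set J := Bl u w' k with hJ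
  have hfl : H318.Flat S.D u w' y := by
    refine ⟨fun v hv => hTA.flat.mem v ?_, fun x g1 g2 => hTA.flat.not x (by omega) (by omega)⟩
    obtain ⟨g1, g2, g3, g4⟩ := hv
    exact ⟨by omega, by omega, g3, g4⟩
  have hJb : ∀ j ∈ J, u - w + K * k ≤ k * j ∧ k * j ≤ u + w - K * k := by
    intro j hj
    have := mem_Bl hk hj
    omega
  have h2 : ∑ i ∈ J, ∑ j ∈ J, PQ Q S ({ω | Pv S (HB (k * i) k) ω} ∩ {ω | Pv S (HB (k * j) k) ω}) ≤
      8 * (((2 * K + 5).toNat : ℕ) : ℝ) ^ 2 := by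
    refine vis2 hQ0 hE hTA.toOk hk' hKk (hKp k hk') J (fun j => k * j) (fun j hj => ?_)
      (fun j hj v hv => ?_) (fun j hj x g1 g2 => ?_) _ fun x T _ hT => ?_
    · have := hJb j hj
      exact hG.mono (by omega) (by omega)
    · have := hJb j hj
      obtain ⟨g1, g2, g3, g4⟩ := hv
      exact hTA.fresh v ⟨by omega, by omega, g3, by omega⟩
    · have := hJb j hj
      exact hTA.flat.not x (by omega) (by omega)
    · have h4 : T ⊆ Finset.Icc (x / (k : ℤ) - (K + 2)) (x / (k : ℤ) + (K + 2)) := by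
        intro j hj
        have h5 := hT j hj
        have h6 := ediv_bd (x := x) (k := k) hk'
        rw [Finset.mem_Icc]
        constructor
        · by_contra hcon
          push Not at hcon
          have : (k : ℤ) * (j + (K + 3)) ≤ k * (x / (k : ℤ)) := by
            refine mul_le_mul_of_nonneg_left (by omega) (by omega)
          have e1 : (k : ℤ) * (j + (K + 3)) = k * j + K * k + 3 * k := by ring
          omega
        · by_contra hcon
          push Not at hcon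
          have : (k : ℤ) * (x / (k : ℤ) + (K + 3)) ≤ k * j := by
            refine mul_le_mul_of_nonneg_left (by omega) (by omega)
          have e1 : (k : ℤ) * (x / (k : ℤ) + (K + 3)) = k * (x / (k : ℤ)) + K * k + 3 * k := by ring
          omega
      refine (Finset.card_le_card h4).trans ?_
      rw [Int.card_Icc]
      omega
  -- the observable
  set N : Cfg → ℕ := fun ω => (J.filter fun j => Pv S (HB (k * j) k) ω).card with hN
  have h3 : ∀ ω, H318.J S.D S.e0 ψ k ω ^ 2 ≤ 4 * (k : ℝ) ^ 2 * (N ω : ℝ) ^ 2 := by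
    intro ω
    have h5 := J_le (ex_of_co hTA.co) hfl hTA.st ω hk (by omega) hψ (fun x hx => by
      have := hs x hx
      omega)
    have h6 : ((((Bl u w' k).filter fun j => H632.Vis (S.D : Set Pt) (k * j, 0) (k - 1) ω S.e0).card :
        ℕ) : ℝ) ≤ (N ω : ℝ) := by
      have : ((Bl u w' k).filter fun j => H632.Vis (S.D : Set Pt) (k * j, 0) (k - 1) ω S.e0).card ≤
          N ω := by
        refine Finset.card_le_card fun j hj => ?_
        rw [Finset.mem_filter] at hj ⊢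
        refine ⟨hj.1, ?_⟩
        obtain ⟨i, hi1, hi2⟩ := hj.2
        refine pv_of (i := i) (fun l hl => hi1 l hl) ?_ hTA.toOk
        rw [mem_hq] at hi2
        show hdv (pth ω S.e0 i) ∈ HB (k * j) k
        exact ⟨by omega, by omega, by omega, by omega⟩
      exact_mod_cast this
    have h7 : |H318.J S.D S.e0 ψ k ω| ≤ 2 * k * (N ω : ℝ) :=
      h5.trans (mul_le_mul_of_nonneg_left h6 (by positivity))
    have h8 : H318.J S.D S.e0 ψ k ω ^ 2 ≤ (2 * k * (N ω : ℝ)) ^ 2 := by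
      rw [← sq_abs]
      exact pow_le_pow_left₀ (abs_nonneg _) h7 2
    calc _ ≤ _ := h8
      _ = _ := by ring
  have h4 : ∀ ω, (N ω : ℝ) ^ 2 = ∑ i ∈ J, ∑ j ∈ J,
      ({ω | Pv S (HB (k * i) k) ω} ∩ {ω | Pv S (HB (k * j) k) ω}).indicator (1 : Cfg → ℝ) ω := by
    intro ω
    have e1 : (N ω : ℝ) = ∑ j ∈ J, ({ω | Pv S (HB (k * j) k) ω}).indicator (1 : Cfg → ℝ) ω := by
      simp only [hN]
      rw [Finset.natCast_card_filter]
      refine Finset.sum_congr rfl fun j _ => ?_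
      by_cases h6 : Pv S (HB (k * j) k) ω
      · rw [if_pos h6, Set.indicator_of_mem (show ω ∈ {ω | Pv S (HB (k * j) k) ω} from h6)]
        rfl
      · rw [if_neg h6, Set.indicator_of_notMem (show ω ∉ {ω | Pv S (HB (k * j) k) ω} from h6)]
    rw [sq, e1, Finset.sum_mul_sum]
    exact Finset.sum_congr rfl fun i _ => Finset.sum_congr rfl fun j _ => (ind_inter _ _ _).symm
  have h5 : EQ Q S (fun ω => (N ω : ℝ) ^ 2) = ∑ i ∈ J, ∑ j ∈ J,
      PQ Q S ({ω | Pv S (HB (k * i) k) ω} ∩ {ω | Pv S (HB (k * j) k) ω}) := by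
    rw [EQ_congr fun ω _ => h4 ω, EQ_sum]
    exact Finset.sum_congr rfl fun i _ => EQ_sum _ _
  have hcast : (((2 * K + 5).toNat : ℕ) : ℝ) = ((2 * K + 5 : ℤ) : ℝ) := by
    have : (((2 * K + 5).toNat : ℕ) : ℤ) = 2 * K + 5 := Int.toNat_of_nonneg (by omega)
    exact_mod_cast congrArg (Int.cast (R := ℝ)) this
  calc EQ Q S (fun ξ => H318.J S.D S.e0 ψ k ξ ^ 2)
      ≤ EQ Q S (fun ω => 4 * (k : ℝ) ^ 2 * (N ω : ℝ) ^ 2) := EQ_mono hQ0 fun ω _ => h3 ω
    _ = 4 * (k : ℝ) ^ 2 * EQ Q S (fun ω => (N ω : ℝ) ^ 2) := EQ_mul _ _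
    _ ≤ 4 * (k : ℝ) ^ 2 * (8 * (((2 * K + 5).toNat : ℕ) : ℝ) ^ 2) := by
        rw [h5]
        gcongr
    _ = _ := by
        rw [hcast]
        ring

end Vale.Agent.P167.N.H632Q
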